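import Vale.Agent.N136.Main

open Vale.Agent.P136.Elasticity Vale.Agent.P136S Vale.Agent.N136

namespace Vale.Agent.Results.P136.A0FiniteRank

/-- Isotropic elasticity in three dimensions: if the difference of the two
displacement-to-traction maps has finite rank on smooth fields, the moduli are equal. -/
theorem result (Ω : Set E3) (lam₁ mu₁ lam₂ mu₂ : E3 → ℝ) (hΩ : SmoothDomain Ω)
    (h₁ : Adm Ω lam₁ mu₁) (h₂ : Adm Ω lam₂ mu₂) (N : ℕ) (a b : Fin N → (Fin 3 → E3 → ℝ) → ℝ)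
    (H : ∀ f g : Fin 3 → E3 → ℝ, (∀ j, Smooth (f j)) → (∀ j, Smooth (g j)) → ∀ r₁ r₂,
      TraceDN Ω lam₁ mu₁ f g r₁ → TraceDN Ω lam₂ mu₂ f g r₂ → r₁ - r₂ = ∑ k, a k f * b k g) :
    ∀ x ∈ closure Ω, lam₁ x = lam₂ x ∧ mu₁ x = mu₂ x :=
  rank hΩ h₁ h₂ a b H

end Vale.Agent.Results.P136.A0FiniteRank
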